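import Vale.Agent.P092.H618.Or.Moore
import Vale.Agent.P092.H618.S2.HmiG

/-!
P092 (helper618), stage CL-O, [CLO-TYPE]: `HMIA` on the concrete picture for the orthogonal groups,
along the torus elements of both walls, in the letters of `H534/Or/Chain`.
-/

set_option linter.all false

open scoped InnerProductSpace ENNReal
open Filter Topology ContinuousLinearMap MeasureTheory TopologicalSpace

namespace Vale.Agent.P092.H618.Or

open Vale.Agent.P092.SR Vale.Agent.P092.H160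
open Vale.Agent.P092.RC (KK pic lam₁ lam₂ XX Om Pic Moore)
open Vale.Agent.P092.H805.Row (mpE)
open Vale.Agent.P092.H618.HMK (Base Sc Tests)
open Vale.Agent.P092.H218.NR (HMIA)
open Vale.Agent.P092.H761 (Gaps)
open Vale.Agent.P092.H303 (Idx hyp FormGroup)
open Vale.Agent.P092.CL (OF EUF)
open Vale.Agent.P092.H534.Or (tO lbO lvO continuous_lbO continuous_lvO comm_lbO comm_lvO)

variable {E : Type} [Group E] [TopologicalSpace E] [IsTopologicalGroup E] [LocallyCompactSpace E]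
  [SecondCountableTopology E] [T2Space E] [MeasurableSpace E] [BorelSpace E] [NoncompactSpace E]
  {Γ : Subgroup E} [DiscreteTopology Γ] [Countable Γ] [MeasurableSpace (E ⧸ Γ)]
  [BorelSpace (E ⧸ Γ)] {ν : Measure (E ⧸ Γ)} [IsProbabilityMeasure ν]
  (hν : ∀ g : E, ν.map (fun x => g • x) = ν)
  {Λ : Type} [Group Λ] [Countable Λ] {α : Γ →* (Ell2 Λ →L[ℂ] Ell2 Λ)} (hα : Frame α)
  {k : Type} [NontriviallyNormedField k] [ProperSpace k] {ι : Type} [Fintype ι] [DecidableEq ι]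
  {J₀ : Matrix ι ι k}

/-- **HMIA, orthogonal groups, any element of the torus and any Howe-Moore group commuting with
it.** -/
theorem hmi_tO {s : ℕ} {S : Type} [Group S] [TopologicalSpace S] [IsTopologicalGroup S]
    {φ : EUF (RingHom.id k) 1 (hyp (s + 2) 1 J₀) →* E}
    {θ : S →* EUF (RingHom.id k) 1 (hyp (s + 2) 1 J₀)}
    (hΛ : ∀ g : Λ, g ≠ 1 → Set.Infinite {y : Λ | ∃ h, y = h * g * h⁻¹}) (h : OF J₀)
    (hφ : Continuous φ) (hθ : Continuous θ) (hS : H933.HoweMoore S) {a : k} (ha : a ≠ 0)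
    (ha1 : ‖a‖ ≠ 1) {l : Fin (s + 2) → ℤ} (hl : l ≠ 0) (hb : ∀ g, Commute (θ g) (tO h s ha l))
    {J : Type} [Fintype J] [DecidableEq J] {R : ℕ} {gap : J → Γ → ℝ} {cl : J → Fin R}
    {A : Finset (Fin R)} {i₀ : J} {mass : E → (Γ → ℝ) → ℝ}
    (hmass : ∀ g (F : Γ → ℝ), (∀ x, |F x| ≤ 1) → mass g F =
      (⟪pic hν hα g (Om ν Λ), mpE ν hα F (pic hν hα g (Om ν Λ))⟫_ℂ).re)
    (hg : Gaps gap cl) (hT : Tests gap cl A i₀) :
    HMIA mass gap cl A i₀ (fun n => φ (tO h s ha l) ^ n) (φ.comp θ) (cocompact S) :=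
  HmiG.hmi_gen hν hα hΛ hφ hθ hS hb (moore_tO h s ha ha1 hl) hmass hg hT

theorem single_ne {s : ℕ} {z : ℤ} (hz : z ≠ 0) : (Pi.single 0 z : Fin (s + 2) → ℤ) ≠ 0 := by
  intro h
  have := congrFun h 0
  rw [Pi.single_eq_same] at this
  exact hz this

theorem const_ne {s : ℕ} {z : ℤ} (hz : z ≠ 0) : (fun _ => z : Fin (s + 2) → ℤ) ≠ 0 := fun h =>
  hz (congrFun h 0)

/-- **[CLO-TYPE], wall of the points**, Witt index `s + 3`. -/
theorem hmi_w1O {s : ℕ} {φ : EUF (RingHom.id k) 1 (hyp (s + 3) 1 J₀) →* E}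
    (hΛ : ∀ g : Λ, g ≠ 1 → Set.Infinite {y : Λ | ∃ h, y = h * g * h⁻¹}) (h : OF J₀)
    (hφ : Continuous φ) {a : k} (ha : a ≠ 0) (ha1 : ‖a‖ ≠ 1) {z : ℤ} (hz : z ≠ 0)
    {J : Type} [Fintype J] [DecidableEq J] {R : ℕ} {gap : J → Γ → ℝ} {cl : J → Fin R}
    {A : Finset (Fin R)} {i₀ : J} {mass : E → (Γ → ℝ) → ℝ}
    (hmass : ∀ g (F : Γ → ℝ), (∀ x, |F x| ≤ 1) → mass g F =
      (⟪pic hν hα g (Om ν Λ), mpE ν hα F (pic hν hα g (Om ν Λ))⟫_ℂ).re)
    (hg : Gaps gap cl) (hT : Tests gap cl A i₀) :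
    HMIA mass gap cl A i₀ (fun n => φ (tO h (s + 1) ha (Pi.single 0 z)) ^ n) (φ.comp (lbO h s))
      (cocompact (EUF (RingHom.id k) 1 (hyp (s + 2) 1 J₀))) :=
  hmi_tO (s := s + 1) hν hα hΛ h hφ (continuous_lbO h s) (hm_EUF h s) ha ha1 (single_ne hz)
    (fun g => (comm_lbO h s ha z g).symm) hmass hg hT

/-- **[CLO-TYPE], wall of the maximal spaces**, Witt index `s + 2`. -/
theorem hmi_wrO {s : ℕ} {φ : EUF (RingHom.id k) 1 (hyp (s + 2) 1 J₀) →* E}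
    (hk : H933.LocK k)
    (hΛ : ∀ g : Λ, g ≠ 1 → Set.Infinite {y : Λ | ∃ h, y = h * g * h⁻¹}) (h : OF J₀)
    (hφ : Continuous φ) {a : k} (ha : a ≠ 0) (ha1 : ‖a‖ ≠ 1) {z : ℤ} (hz : z ≠ 0)
    {J : Type} [Fintype J] [DecidableEq J] {R : ℕ} {gap : J → Γ → ℝ} {cl : J → Fin R}
    {A : Finset (Fin R)} {i₀ : J} {mass : E → (Γ → ℝ) → ℝ}
    (hmass : ∀ g (F : Γ → ℝ), (∀ x, |F x| ≤ 1) → mass g F =
      (⟪pic hν hα g (Om ν Λ), mpE ν hα F (pic hν hα g (Om ν Λ))⟫_ℂ).re)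
    (hg : Gaps gap cl) (hT : Tests gap cl A i₀) :
    HMIA mass gap cl A i₀ (fun n => φ (tO h s ha fun _ => z) ^ n) (φ.comp (lvO h s))
      (cocompact (Matrix.SpecialLinearGroup (Fin (s + 2)) k)) :=
  hmi_tO hν hα hΛ h hφ (continuous_lvO h s) (H933.hm_sl hk (by omega)) ha ha1 (const_ne hz)
    (fun g => (comm_lvO h s ha z g).symm) hmass hg hT

end Vale.Agent.P092.H618.Or
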