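import Vale.Agent.P092.H534.Or.Chain
import Vale.Agent.P092.H618.S2.MooreF

/-!
P092 (helper618), stage CL-O, [CLO-TYPE]: the group `EUF` generated by the Eichler elements of a
symmetric form (orthogonal groups): Howe-Moore property, and the Moore property of the contracted
group of every nontrivial element of the torus.
-/

set_option linter.all false

open Matrix Set Topology Filter

namespace Vale.Agent.P092.H618.Or

open Vale.Agent.P092.H303
open Vale.Agent.P092.H370.Fo (EU EU_le)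
open Vale.Agent.P092.CL (OF EUF)
open Vale.Agent.P092.H534.Or (tO)
open Vale.Agent.P092.H899.Ort (Om root2_mem_om hyp_single hyp_single' hmg_om)
open Vale.Agent.P092.H15 (HMG)
open Vale.Agent.P092.RC (Moore)
open Vale.Agent.P092.H368.SN (Ctr)
open Vale.Agent.P092.H618.MooreF (tor_root2 root2_ent)

variable {k : Type} [NontriviallyNormedField k] {ι : Type} [Fintype ι] [DecidableEq ι]
  {J₀ : Matrix ι ι k}

/-- helper899's group is the group of the Eichler elements -/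
def toF (h : OF J₀) (s : ℕ) :
    Om (hyp (s + 2) 1 J₀⁻¹) →* EUF (RingHom.id k) 1 (hyp (s + 2) 1 J₀) where
  toFun g := ⟨⟨g.1, EU_le (h.fm s) (by rw [h.eu s]; exact g.2)⟩, by
    change g.1 ∈ EU (RingHom.id k) 1 (hyp (s + 2) 1 J₀)
    rw [h.eu s]
    exact g.2⟩
  map_one' := rfl
  map_mul' _ _ := rfl

theorem continuous_toF (h : OF J₀) (s : ℕ) : Continuous (toF h s) :=
  Continuous.subtype_mk (Continuous.subtype_mk continuous_subtype_val _) _

theorem toF_surj (h : OF J₀) (s : ℕ) : Function.Surjective (toF h s) := fun g =>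
  ⟨⟨g.1.1, by rw [← h.eu s]; exact g.2⟩, rfl⟩

/-- **Howe-Moore, group form** -/
theorem hmg_EUF [ProperSpace k] (h : OF J₀) (s : ℕ) :
    HMG (EUF (RingHom.id k) 1 (hyp (s + 2) 1 J₀)) :=
  (hmg_om (h.good' s)).of_surj (toF h s) (continuous_toF h s) (toF_surj h s)

/-- **Howe-Moore** -/
theorem hm_EUF [ProperSpace k] (h : OF J₀) (s : ℕ) :
    H933.HoweMoore (EUF (RingHom.id k) 1 (hyp (s + 2) 1 J₀)) := (hmg_EUF h s).howeMoore

/-- the root `e_i - e_j` -/
theorem sub_mem (h : OF J₀) (s : ℕ) {i j : Fin (s + 2)}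
    (h1 : (Sum.inl (Sum.inl i) : Idx (s + 2) ι) ≠ Sum.inl (Sum.inl j))
    (h2 : (Sum.inl (Sum.inr j) : Idx (s + 2) ι) ≠ Sum.inl (Sum.inr i)) (t : k) :
    root2 h1 h2 t (-t) ∈ EU (RingHom.id k) 1 (hyp (s + 2) 1 J₀) := by
  rw [h.eu s]
  exact root2_mem_om (h.good' s).sym (fun x => hyp_single _ _ x i) (fun x => hyp_single' _ _ x j)
    (by simp) (by simp) h1 h2 t

/-- the root `e_i + e_j` -/
theorem add_mem (h : OF J₀) (s : ℕ) {i j : Fin (s + 2)}
    (h1 : (Sum.inl (Sum.inl i) : Idx (s + 2) ι) ≠ Sum.inl (Sum.inr j))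
    (h2 : (Sum.inl (Sum.inl j) : Idx (s + 2) ι) ≠ Sum.inl (Sum.inr i)) (t : k) :
    root2 h1 h2 t (-t) ∈ EU (RingHom.id k) 1 (hyp (s + 2) 1 J₀) := by
  rw [h.eu s]
  exact root2_mem_om (h.good' s).sym (fun x => hyp_single _ _ x i) (fun x => hyp_single _ _ x j)
    (by simp) (by simp) h1 h2 t

/-- the root `- e_i - e_j` -/
theorem nad_mem (h : OF J₀) (s : ℕ) {i j : Fin (s + 2)}
    (h1 : (Sum.inl (Sum.inr i) : Idx (s + 2) ι) ≠ Sum.inl (Sum.inl j))
    (h2 : (Sum.inl (Sum.inr j) : Idx (s + 2) ι) ≠ Sum.inl (Sum.inl i)) (t : k) :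
    root2 h1 h2 t (-t) ∈ EU (RingHom.id k) 1 (hyp (s + 2) 1 J₀) := by
  rw [h.eu s]
  exact root2_mem_om (h.good' s).sym (fun x => hyp_single' _ _ x i)
    (fun x => hyp_single' _ _ x j) (by simp) (by simp) h1 h2 t

section moore

variable [ProperSpace k]

/-- the general root -/
theorem moore_rootO (h : OF J₀) (s : ℕ) {a : k} (ha : a ≠ 0) (l : Fin (s + 2) → ℤ)
    {x y x' y' : Idx (s + 2) ι} (h1 : x ≠ y) (h2 : y' ≠ x') (h3 : x ≠ y') (h4 : y ≠ y')
    (hm : ∀ t : k, root2 h1 h2 t (-t) ∈ EU (RingHom.id k) 1 (hyp (s + 2) 1 J₀)) {c : k}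
    (hc : ‖c‖ < 1) (e1 : dgF (s + 2) ι (a ^ 2) l x = c * dgF (s + 2) ι (a ^ 2) l y)
    (e2 : dgF (s + 2) ι (a ^ 2) l y' = c * dgF (s + 2) ι (a ^ 2) l x') :
    Moore (Ctr (tO h s ha l)) := by
  refine H618.MooreR.moore_ctr_root (k := k) (hmg_EUF h s)
    (x := fun t => (⟨⟨root2 h1 h2 t (-t), EU_le (h.fm s) (hm t)⟩, hm t⟩ :
      EUF (RingHom.id k) 1 (hyp (s + 2) 1 J₀)))
    (((continuous_root2 _ _ continuous_id (by fun_prop)).subtype_mk _).subtype_mk _) ?_ (c := c) hc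
    ?_ (f := fun g : EUF (RingHom.id k) 1 (hyp (s + 2) 1 J₀) => ‖g.1.1.1 x y‖) ?_ ?_
  · apply Subtype.ext
    apply Subtype.ext
    apply Subtype.ext
    change transvection x y (0 : k) * transvection y' x' (-0) = 1
    rw [neg_zero, transvection_zero, transvection_zero, Matrix.one_mul]
  · intro r
    apply Subtype.ext
    apply Subtype.ext
    have h5 := tor_root2 (ι := ι) (pow_ne_zero 2 ha) l h1 h2 e1 e2 r (-r)
    change torF (s + 2) ι (pow_ne_zero 2 ha) l * root2 h1 h2 r (-r) =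
      root2 h1 h2 (c * r) (-(c * r)) * torF (s + 2) ι (pow_ne_zero 2 ha) l
    rw [h5, mul_neg]
  · have h6 : Continuous fun g : FormGroup (RingHom.id k) (hyp (s + 2) 1 J₀) => g.1.1 :=
      continuous_subtype_val.comp continuous_subtype_val
    have h7 : Continuous fun g : EUF (RingHom.id k) 1 (hyp (s + 2) 1 J₀) => g.1 :=
      continuous_subtype_val
    have h5 : Continuous fun g : EUF (RingHom.id k) 1 (hyp (s + 2) 1 J₀) => g.1.1.1 :=
      h6.comp h7
    exact ((continuous_apply y).comp ((continuous_apply x).comp h5)).norm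
  · intro r
    change ‖r‖ ≤ ‖(root2 h1 h2 r (-r)).1 x y‖
    rw [root2_ent h1 h2 h3 h4]

theorem moore_subO (h : OF J₀) (s : ℕ) {a : k} (ha : a ≠ 0) (l : Fin (s + 2) → ℤ)
    {i j : Fin (s + 2)} (hij : i ≠ j) (hl : ‖(a ^ 2) ^ (l i - l j)‖ < 1) :
    Moore (Ctr (tO h s ha l)) := by
  have hw : a ^ 2 ≠ 0 := pow_ne_zero 2 ha
  refine moore_rootO h s ha l (x := Sum.inl (Sum.inl i)) (y := Sum.inl (Sum.inl j))
    (x' := Sum.inl (Sum.inr i)) (y' := Sum.inl (Sum.inr j)) (by simpa using hij)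
    (by simpa using hij.symm) (by simp) (by simp) (fun t => sub_mem h s _ _ t) hl ?_ ?_
  · change (a ^ 2) ^ l i = (a ^ 2) ^ (l i - l j) * (a ^ 2) ^ l j
    rw [← zpow_add₀ hw]; congr 1; ring
  · change (a ^ 2) ^ (- l j) = (a ^ 2) ^ (l i - l j) * (a ^ 2) ^ (- l i)
    rw [← zpow_add₀ hw]; congr 1; ring

theorem moore_addO (h : OF J₀) (s : ℕ) {a : k} (ha : a ≠ 0) (l : Fin (s + 2) → ℤ)
    {i j : Fin (s + 2)} (hij : i ≠ j) (hl : ‖(a ^ 2) ^ (l i + l j)‖ < 1) :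
    Moore (Ctr (tO h s ha l)) := by
  have hw : a ^ 2 ≠ 0 := pow_ne_zero 2 ha
  refine moore_rootO h s ha l (x := Sum.inl (Sum.inl i)) (y := Sum.inl (Sum.inr j))
    (x' := Sum.inl (Sum.inr i)) (y' := Sum.inl (Sum.inl j)) (by simp) (by simp)
    (by simpa using hij) (by simp) (fun t => add_mem h s _ _ t) hl ?_ ?_
  · change (a ^ 2) ^ l i = (a ^ 2) ^ (l i + l j) * (a ^ 2) ^ (- l j)
    rw [← zpow_add₀ hw]; congr 1; ring
  · change (a ^ 2) ^ l j = (a ^ 2) ^ (l i + l j) * (a ^ 2) ^ (- l i)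
    rw [← zpow_add₀ hw]; congr 1; ring

theorem moore_nadO (h : OF J₀) (s : ℕ) {a : k} (ha : a ≠ 0) (l : Fin (s + 2) → ℤ)
    {i j : Fin (s + 2)} (hij : i ≠ j) (hl : ‖(a ^ 2) ^ (- l i - l j)‖ < 1) :
    Moore (Ctr (tO h s ha l)) := by
  have hw : a ^ 2 ≠ 0 := pow_ne_zero 2 ha
  refine moore_rootO h s ha l (x := Sum.inl (Sum.inr i)) (y := Sum.inl (Sum.inl j))
    (x' := Sum.inl (Sum.inl i)) (y' := Sum.inl (Sum.inr j)) (by simp) (by simp)
    (by simpa using hij) (by simp) (fun t => nad_mem h s _ _ t) hl ?_ ?_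
  · change (a ^ 2) ^ (- l i) = (a ^ 2) ^ (- l i - l j) * (a ^ 2) ^ l j
    rw [← zpow_add₀ hw]; congr 1; ring
  · change (a ^ 2) ^ (- l j) = (a ^ 2) ^ (- l i - l j) * (a ^ 2) ^ l i
    rw [← zpow_add₀ hw]; congr 1; ring

/-- **The contracted group of every nontrivial element of the torus has the Moore property.** -/
theorem moore_tO (h : OF J₀) (s : ℕ) {a : k} (ha : a ≠ 0) (ha1 : ‖a‖ ≠ 1)
    {l : Fin (s + 2) → ℤ} (hl : l ≠ 0) : Moore (Ctr (tO h s ha l)) := by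
  have h0 : 0 < ‖a ^ 2‖ := norm_pos_iff.2 (pow_ne_zero 2 ha)
  have hw1 : ‖a ^ 2‖ ≠ 1 := by
    rw [norm_pow]
    intro h5
    exact ha1 ((pow_eq_one_iff_of_nonneg (norm_nonneg a) two_ne_zero).1 h5)
  obtain ⟨i, hi⟩ := Function.ne_iff.1 hl
  haveI : Nontrivial (Fin (s + 2)) := Fin.nontrivial_iff_two_le.2 (by omega)
  obtain ⟨j, hj⟩ := exists_ne i
  by_cases h1 : l i = l j
  · have h2 : ‖a ^ 2‖ ^ (l i + l j) ≠ 1 := by
      intro h5
      rw [zpow_eq_one_iff_right₀ h0.le hw1] at h5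
      apply hi
      change l i = 0
      omega
    rcases lt_or_gt_of_ne h2 with h3 | h3
    · exact moore_addO h s ha l hj.symm (by rw [norm_zpow]; exact h3)
    · refine moore_nadO h s ha l hj.symm ?_
      have h4 : - l i - l j = -(l i + l j) := by ring
      rw [norm_zpow, h4, _root_.zpow_neg]
      exact inv_lt_one_of_one_lt₀ h3
  · have h2 : ‖a ^ 2‖ ^ (l i - l j) ≠ 1 := by
      intro h5
      rw [zpow_eq_one_iff_right₀ h0.le hw1] at h5
      exact h1 (sub_eq_zero.1 h5)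
    rcases lt_or_gt_of_ne h2 with h3 | h3
    · exact moore_subO h s ha l hj.symm (by rw [norm_zpow]; exact h3)
    · refine moore_subO h s ha l hj ?_
      rw [norm_zpow, ← neg_sub, _root_.zpow_neg]
      exact inv_lt_one_of_one_lt₀ h3

end moore

end Vale.Agent.P092.H618.Or
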